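import Mathlib.NumberTheory.LSeries.DirichletContinuation
import Mathlib.NumberTheory.LSeries.HurwitzZetaValues
import Mathlib.Analysis.Normed.Group.Tannery
import Mathlib.Data.Int.CardIntervalMod
import Mathlib.Tactic

/-!
# P017: density of squarefree numbers in residue classes
-/

open Finset Filter Topology
open scoped ArithmeticFunction.Moebius

namespace Vale.Agent.P017.R3.H524

/-- squarefree numbers `≤ Y` congruent to `a` modulo `q` -/
def SS (q a Y : ℕ) : Finset ℕ := (Icc 1 Y).filter (fun n => Squarefree n ∧ n % q = a)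

/-- multiples of `k ^ 2` -/
def NN (q a k Y : ℕ) : Finset ℕ := (Icc 1 Y).filter (fun n => k ^ 2 ∣ n ∧ n % q = a)

theorem sq_dvd_iff {k b m : ℕ} (hb : b ≠ 0) (hm : Squarefree m) :
    k ^ 2 ∣ b ^ 2 * m ↔ k ∣ b := by
  constructor
  · intro h
    rcases eq_or_ne k 0 with rfl | hk
    · exfalso
      have h1 : b ^ 2 * m = 0 := by
        simpa using h
      have : m ≠ 0 := hm.ne_zero
      have : b ^ 2 * m ≠ 0 := by positivity
      contradiction
    have hm0 : m ≠ 0 := hm.ne_zero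
    rw [← Nat.factorization_le_iff_dvd (by positivity) (by positivity)] at h
    rw [← Nat.factorization_le_iff_dvd hk hb]
    intro p
    have h2 := h p
    rw [Nat.factorization_mul (by positivity) hm0] at h2
    simp only [Nat.factorization_pow, Finsupp.coe_smul, Pi.smul_apply, Finsupp.coe_add,
      Pi.add_apply, smul_eq_mul] at h2
    have h3 := (Nat.squarefree_iff_factorization_le_one hm0).1 hm p
    omega
  · intro h
    exact dvd_mul_of_dvd_left (pow_dvd_pow_of_dvd h 2) m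

/-- `μ² (n) = ∑_{k² ∣ n} μ(k)` -/
theorem sum_moebius_sq {n K : ℕ} (hn : n ≠ 0) (hK : n < K) :
    ∑ k ∈ range K, (if k ^ 2 ∣ n then (μ k : ℝ) else 0) = if Squarefree n then 1 else 0 := by
  obtain ⟨m, b, hbm, hm⟩ := Nat.sq_mul_squarefree n
  have hb : b ≠ 0 := by
    rintro rfl
    simp at hbm
    exact hn hbm.symm
  have hm0 : m ≠ 0 := hm.ne_zero
  have hbn : b ≤ n := by
    rw [← hbm]
    calc b ≤ b ^ 2 := by nlinarith [Nat.pos_of_ne_zero hb]
      _ ≤ b ^ 2 * m := Nat.le_mul_of_pos_right _ (Nat.pos_of_ne_zero hm0)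
  have h1 : ∑ k ∈ range K, (if k ^ 2 ∣ n then (μ k : ℝ) else 0) = ∑ k ∈ b.divisors, (μ k : ℝ) := by
    rw [← Finset.sum_filter]
    apply Finset.sum_congr _ (fun _ _ => rfl)
    ext k
    simp only [mem_filter, mem_range, Nat.mem_divisors]
    rw [← hbm, sq_dvd_iff hb hm]
    constructor
    · rintro ⟨_, h⟩
      exact ⟨h, hb⟩
    · rintro ⟨h, _⟩
      exact ⟨by have := Nat.le_of_dvd (Nat.pos_of_ne_zero hb) h; omega, h⟩
  rw [h1]
  have h2 : ∑ k ∈ b.divisors, (μ k : ℤ) = if b = 1 then 1 else 0 := by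
    have h3 : ((μ : ArithmeticFunction ℤ) * (ArithmeticFunction.zeta : ArithmeticFunction ℕ)) b =
        (1 : ArithmeticFunction ℤ) b := by
      rw [ArithmeticFunction.moebius_mul_coe_zeta]
    rw [ArithmeticFunction.coe_mul_zeta_apply] at h3
    rw [h3, ArithmeticFunction.one_apply]
  have h3 : ∑ k ∈ b.divisors, (μ k : ℝ) = ((∑ k ∈ b.divisors, (μ k : ℤ) : ℤ) : ℝ) := by
    push_cast
    rfl
  rw [h3, h2]
  have h4 : Squarefree n ↔ b = 1 := by
    constructor
    · intro h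
      have h5 : b * b ∣ n := by rw [← hbm, sq]; exact Dvd.intro _ rfl
      exact Nat.isUnit_iff.1 (h b h5)
    · rintro rfl
      rw [← hbm]
      simpa using hm
  by_cases h : b = 1
  · simp [h4, h]
  · simp [h4, h]

theorem SS_eq (q a Y : ℕ) :
    ((SS q a Y).card : ℝ) = ∑' k : ℕ, (μ k : ℝ) * ((NN q a k Y).card : ℝ) := by
  have h0 : ∀ k : ℕ, k ∉ range (Y + 1) → (μ k : ℝ) * ((NN q a k Y).card : ℝ) = 0 := by
    intro k hk
    have : NN q a k Y = ∅ := by
      ext n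
      simp only [NN, mem_filter, mem_Icc, notMem_empty, iff_false, not_and]
      rintro ⟨h1, h2⟩ h3
      have h4 := Nat.le_of_dvd (by omega) h3
      simp only [mem_range, not_lt] at hk
      nlinarith
    simp [this]
  rw [tsum_eq_sum h0]
  simp only [SS, NN, card_filter]
  push_cast
  simp_rw [Finset.mul_sum]
  rw [Finset.sum_comm]
  apply Finset.sum_congr rfl
  intro n hn
  simp only [mem_Icc] at hn
  have h1 := sum_moebius_sq (n := n) (K := Y + 1) (by omega) (by omega)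
  by_cases h : n % q = a
  · simp only [h, and_true]
    rw [← h1]
    apply Finset.sum_congr rfl
    intro k _
    split_ifs <;> simp
  · simp [h]


theorem card_class {r : ℕ} (hr : 0 < r) (c Y : ℕ) :
    |(((Icc 1 Y).filter (fun n => n ≡ c [MOD r])).card : ℝ) - (Y : ℝ) / r| ≤ 1 := by
  have h0 : (Icc 1 Y) = Ioc 0 Y := by
    ext n; simp [mem_Icc, mem_Ioc]; omega
  have h1 := Nat.Ioc_filter_modEq_card 0 Y hr c
  rw [← h0] at h1
  have hr' : (0 : ℚ) < (r : ℚ) := by exact_mod_cast hr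
  set A : ℚ := ((Y : ℚ) - c) / r with hA
  set B : ℚ := (((0 : ℕ) : ℚ) - c) / r with hB
  have hAB : A - B = (Y : ℚ) / r := by
    rw [hA, hB]; field_simp; push_cast; ring
  have hle : B ≤ A := by
    have : (0 : ℚ) ≤ (Y : ℚ) / r := by positivity
    linarith
  have hfl : ⌊B⌋ ≤ ⌊A⌋ := Int.floor_le_floor hle
  rw [max_eq_left (by omega)] at h1
  have h2 := Int.floor_le A
  have h3 := Int.lt_floor_add_one A
  have h4 := Int.floor_le B
  have h5 := Int.lt_floor_add_one B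
  have h6 : ((((Icc 1 Y).filter (fun n => n ≡ c [MOD r])).card : ℤ) : ℚ) =
      (⌊A⌋ : ℚ) - (⌊B⌋ : ℚ) := by
    rw [h1]; push_cast; ring
  have h7 : |((((Icc 1 Y).filter (fun n => n ≡ c [MOD r])).card : ℤ) : ℚ) - (Y : ℚ) / r| ≤ 1 := by
    rw [h6, ← hAB, abs_le]
    constructor <;> linarith
  have h8 : ((|((((Icc 1 Y).filter (fun n => n ≡ c [MOD r])).card : ℤ) : ℚ) - (Y : ℚ) / r| : ℚ) : ℝ)
      ≤ ((1 : ℚ) : ℝ) := by exact_mod_cast h7
  push_cast at h8
  exact h8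

theorem NN_card_le (q a k Y : ℕ) :
    ((NN q a k Y).card : ℝ) ≤ (Y : ℝ) / (k : ℝ) ^ 2 := by
  have h1 : NN q a k Y ⊆ (Ioc 0 Y).filter (fun n => k ^ 2 ∣ n) := by
    intro n hn
    simp only [NN, mem_filter, mem_Icc, mem_Ioc] at hn ⊢
    exact ⟨⟨by omega, hn.1.2⟩, hn.2.1⟩
  have h2 := Finset.card_le_card h1
  rw [Nat.Ioc_filter_dvd_card_eq_div] at h2
  calc ((NN q a k Y).card : ℝ) ≤ ((Y / k ^ 2 : ℕ) : ℝ) := by exact_mod_cast h2
    _ ≤ (Y : ℝ) / ((k ^ 2 : ℕ) : ℝ) := Nat.cast_div_le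
    _ = _ := by push_cast; rfl

theorem NN_empty {q a k Y : ℕ} (ha : a.Coprime q) (hk : ¬ k.Coprime q) : NN q a k Y = ∅ := by
  ext n
  simp only [NN, mem_filter, mem_Icc, notMem_empty, iff_false, not_and]
  rintro _ h2 h3
  obtain ⟨p, hp, hpk, hpq⟩ := Nat.Prime.not_coprime_iff_dvd.1 hk
  have h4 : p ∣ n := (hpk.trans (Dvd.intro_left k (by ring : k * k = k ^ 2))).trans h2
  have h5 : p ∣ a := by
    rw [← h3]
    exact (Nat.dvd_mod_iff hpq).2 h4
  have h6 : p ∣ 1 := by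
    have := Nat.dvd_gcd h5 hpq
    rwa [Nat.Coprime.gcd_eq_one ha] at this
  exact hp.one_lt.ne' (Nat.dvd_one.1 h6)

theorem NN_tendsto {q a k : ℕ} (hq : 0 < q) (haq : a < q) (hk : k ≠ 0) (hkq : k.Coprime q) :
    Tendsto (fun Y : ℕ => ((NN q a k Y).card : ℝ) / Y) atTop
      (𝓝 (1 / ((q : ℝ) * (k : ℝ) ^ 2))) := by
  have hco : (k ^ 2).Coprime q := Nat.Coprime.pow_left 2 hkq
  obtain ⟨c, hc1, hc2⟩ := Nat.chineseRemainder hco 0 a
  have hr : 0 < k ^ 2 * q := by positivity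
  have hset : ∀ Y : ℕ, NN q a k Y = (Icc 1 Y).filter (fun n => n ≡ c [MOD k ^ 2 * q]) := by
    intro Y
    ext n
    simp only [NN, mem_filter]
    rw [← Nat.modEq_and_modEq_iff_modEq_mul hco]
    constructor
    · rintro ⟨h1, h2, h3⟩
      refine ⟨h1, ?_, ?_⟩
      · exact ((Nat.modEq_zero_iff_dvd).2 h2).trans hc1.symm
      · have : n ≡ a [MOD q] := by
          rw [Nat.ModEq, h3, Nat.mod_eq_of_lt haq]
        exact this.trans hc2.symm
    · rintro ⟨h1, h2, h3⟩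
      refine ⟨h1, (Nat.modEq_zero_iff_dvd).1 (h2.trans hc1), ?_⟩
      have := h3.trans hc2
      rw [Nat.ModEq, Nat.mod_eq_of_lt haq] at this
      exact this
  rw [Metric.tendsto_atTop]
  intro ε hε
  obtain ⟨N, hN⟩ := exists_nat_gt (1 / ε)
  refine ⟨N + 1, fun Y hY => ?_⟩
  have hYpos : (0 : ℝ) < Y := by
    have : 0 < Y := by omega
    exact_mod_cast this
  have h1 := card_class hr c Y
  rw [← hset Y] at h1
  rw [Real.dist_eq]
  have h2 : ((NN q a k Y).card : ℝ) / Y - 1 / ((q : ℝ) * (k : ℝ) ^ 2) =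
      (((NN q a k Y).card : ℝ) - (Y : ℝ) / ((k ^ 2 * q : ℕ) : ℝ)) / Y := by
    have hq' : (q : ℝ) ≠ 0 := by positivity
    have hk' : (k : ℝ) ≠ 0 := by exact_mod_cast hk
    push_cast
    field_simp
  rw [h2, abs_div, abs_of_pos hYpos, div_lt_iff₀ hYpos]
  have h3 : 1 / ε < Y := by
    refine hN.trans ?_
    have : N < Y := by omega
    exact_mod_cast this
  have h4 : 1 < ε * Y := by
    rw [div_lt_iff₀ hε] at h3
    linarith
  linarith

/-- the constant `∑_{(k,q)=1} μ(k)/k²` -/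
noncomputable def LL (q : ℕ) : ℝ := ∑' k : ℕ, if k.Coprime q then (μ k : ℝ) / (k : ℝ) ^ 2 else 0

theorem SS_tendsto {q a : ℕ} (hq : 0 < q) (haq : a < q) (ha : a.Coprime q) :
    Tendsto (fun Y : ℕ => ((SS q a Y).card : ℝ) / Y) atTop (𝓝 (LL q / q)) := by
  have hLL : LL q / q = ∑' k : ℕ, (if k.Coprime q then (μ k : ℝ) / (k : ℝ) ^ 2 else 0) / q := by
    rw [LL, tsum_div_const]
  rw [hLL]
  have hfun : (fun Y : ℕ => ((SS q a Y).card : ℝ) / Y) =
      fun Y : ℕ => ∑' k : ℕ, (μ k : ℝ) * ((NN q a k Y).card : ℝ) / Y := by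
    funext Y
    rw [SS_eq, tsum_div_const]
  rw [hfun]
  have hmu : ∀ k : ℕ, |(μ k : ℝ)| ≤ 1 := by
    intro k
    have := ArithmeticFunction.abs_moebius_le_one (n := k)
    exact_mod_cast this
  refine tendsto_tsum_of_dominated_convergence (bound := fun k : ℕ => 1 / (k : ℝ) ^ 2)
    (Real.summable_one_div_nat_pow.2 (by norm_num)) ?_ ?_
  · intro k
    rcases eq_or_ne k 0 with rfl | hk
    · simp
    by_cases hkq : k.Coprime q
    · rw [if_pos hkq]
      have h1 := (NN_tendsto hq haq hk hkq).const_mul (μ k : ℝ)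
      have h2 : (μ k : ℝ) * (1 / ((q : ℝ) * (k : ℝ) ^ 2)) = (μ k : ℝ) / (k : ℝ) ^ 2 / q := by
        have hq' : (q : ℝ) ≠ 0 := by positivity
        have hk' : (k : ℝ) ≠ 0 := by exact_mod_cast hk
        field_simp
      rw [h2] at h1
      refine h1.congr (fun Y => ?_)
      ring
    · simp [NN_empty ha hkq, hkq]
  · filter_upwards with Y k
    rcases eq_or_ne k 0 with rfl | hk
    · simp
    rcases eq_or_ne Y 0 with rfl | hY
    · simp
    have hY' : (0 : ℝ) < Y := by positivity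
    rw [Real.norm_eq_abs, abs_div, abs_mul, abs_of_pos hY',
      abs_of_nonneg (by positivity : (0 : ℝ) ≤ ((NN q a k Y).card : ℝ))]
    have h1 := NN_card_le q a k Y
    rw [div_le_iff₀ hY']
    calc |(μ k : ℝ)| * ((NN q a k Y).card : ℝ) ≤ 1 * ((Y : ℝ) / (k : ℝ) ^ 2) :=
          mul_le_mul (hmu k) h1 (by positivity) (by norm_num)
      _ = 1 / (k : ℝ) ^ 2 * Y := by ring

section

open Complex

theorem LL_eq_LSeries (q : ℕ) [NeZero q] :
    ((LL q : ℝ) : ℂ) = LSeries (fun n => ((1 : DirichletCharacter ℂ q) (n : ZMod q)) * ((μ n : ℤ) : ℂ)) 2 := by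
  rw [LL, LSeries, Complex.ofReal_tsum]
  apply tsum_congr
  intro k
  rcases eq_or_ne k 0 with rfl | hk
  · simp
  rw [LSeries.term_of_ne_zero hk]
  by_cases h : k.Coprime q
  · have h1 : IsUnit ((k : ZMod q)) := (ZMod.isUnit_iff_coprime k q).2 h
    rw [if_pos h, MulChar.one_apply h1]
    push_cast
    rw [one_mul]
    norm_cast
  · have h1 : ¬ IsUnit ((k : ZMod q)) := fun h2 => h ((ZMod.isUnit_iff_coprime k q).1 h2)
    rw [if_neg h, MulChar.map_nonunit _ h1]
    simp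

theorem LL_val (q : ℕ) [NeZero q] :
    LL q * ((∏ p ∈ q.primeFactors, (1 - 1 / (p : ℝ) ^ 2)) * (Real.pi ^ 2 / 6)) = 1 := by
  have h1 := DirichletCharacter.LSeries.mul_mu_eq_one (1 : DirichletCharacter ℂ q) (s := 2)
    (by norm_num)
  have h2 : LSeries (fun n => (1 : DirichletCharacter ℂ q) (n : ZMod q)) 2 =
      (∏ p ∈ q.primeFactors, (1 - (p : ℂ) ^ (-(2 : ℂ)))) * riemannZeta 2 := by
    rw [← DirichletCharacter.LFunctionTrivChar_eq_mul_riemannZeta (N := q) (by norm_num)]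
    rw [DirichletCharacter.LFunctionTrivChar,
      DirichletCharacter.LFunction_eq_LSeries _ (by norm_num)]
  have h3 : LSeries ((fun n : ℕ => (1 : DirichletCharacter ℂ q) (n : ZMod q)) *
      (fun n : ℕ => ((μ n : ℤ) : ℂ))) 2 = ((LL q : ℝ) : ℂ) := by
    rw [LL_eq_LSeries]
    rfl
  have h4 : ((LL q * ((∏ p ∈ q.primeFactors, (1 - 1 / (p : ℝ) ^ 2)) * (Real.pi ^ 2 / 6)) : ℝ) : ℂ)
      = 1 := by
    rw [← h1, h3, h2, riemannZeta_two]
    push_cast
    have h5 : ∀ p : ℕ, (p : ℂ) ^ (-(2 : ℂ)) = 1 / (p : ℂ) ^ 2 := by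
      intro p
      rw [Complex.cpow_neg]
      norm_cast
      rw [one_div]
    simp_rw [h5]
    ring
  exact_mod_cast h4

end

end Vale.Agent.P017.R3.H524
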