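import Vale.Agent.P017.R3.Defs
import Vale.Agent.P017.R3.H524.Sqf

/-!
# P017: the numerical constants (B14)
-/

open Finset Filter Topology

namespace Vale.Agent.P017.R3.H524

/-- squarefree numbers `≤ Y` with residue modulo `q` in `R` -/
def TT (q : ℕ) (R : Finset ℕ) (Y : ℕ) : Finset ℕ :=
  (Icc 1 Y).filter (fun n => Squarefree n ∧ n % q ∈ R)

theorem TT_card (q : ℕ) (R : Finset ℕ) (Y : ℕ) :
    ((TT q R Y).card : ℝ) = ∑ r ∈ R, ((SS q r Y).card : ℝ) := by
  have h : TT q R Y = R.biUnion (fun r => SS q r Y) := by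
    ext n
    simp only [TT, SS, mem_filter, mem_biUnion]
    constructor
    · rintro ⟨h1, h2, h3⟩
      exact ⟨n % q, h3, h1, h2, rfl⟩
    · rintro ⟨r, h1, h2, h3, h4⟩
      exact ⟨h2, h3, h4 ▸ h1⟩
  rw [h, Finset.card_biUnion]
  · push_cast; rfl
  · intro r _ s _ hrs
    rw [Function.onFun, Finset.disjoint_left]
    intro n hn hn'
    simp only [SS, mem_filter] at hn hn'
    exact hrs (hn.2.2.symm.trans hn'.2.2)

theorem TT_tendsto {q : ℕ} (hq : 0 < q) (R : Finset ℕ) (hR : ∀ r ∈ R, r < q ∧ r.Coprime q) :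
    Tendsto (fun Y : ℕ => ((TT q R Y).card : ℝ) / Y) atTop (𝓝 (R.card * (LL q / q))) := by
  have h1 : (fun Y : ℕ => ((TT q R Y).card : ℝ) / Y) =
      fun Y : ℕ => ∑ r ∈ R, ((SS q r Y).card : ℝ) / Y := by
    funext Y
    rw [TT_card, Finset.sum_div]
  rw [h1]
  have h2 : (R.card : ℝ) * (LL q / q) = ∑ _r ∈ R, LL q / q := by
    rw [Finset.sum_const, nsmul_eq_mul]
  rw [h2]
  exact tendsto_finsetSum _ fun r hr => SS_tendsto hq (hR r hr).1 (hR r hr).2

theorem div_tendsto {c : ℕ} (hc : 0 < c) :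
    Tendsto (fun X : ℕ => ((X / c : ℕ) : ℝ) / X) atTop (𝓝 (1 / c)) := by
  have hc' : (0 : ℝ) < c := by exact_mod_cast hc
  have h1 : Tendsto (fun X : ℕ => (1 : ℝ) / c - 1 / X) atTop (𝓝 (1 / c)) := by
    have := (tendsto_const_nhds (x := (1 : ℝ) / c)).sub
      (tendsto_one_div_atTop_nhds_zero_nat (𝕜 := ℝ))
    simpa using this
  refine tendsto_of_tendsto_of_tendsto_of_le_of_le' h1 tendsto_const_nhds ?_ ?_
  · filter_upwards [eventually_gt_atTop 0] with X hX
    have hX' : (0 : ℝ) < X := by exact_mod_cast hX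
    rw [le_div_iff₀ hX']
    have h2 : (X : ℝ) < ((X / c : ℕ) + 1) * c := by
      have : X < (X / c + 1) * c := by
        have h3 := Nat.div_add_mod X c
        have h4 := Nat.mod_lt X hc
        nlinarith
      exact_mod_cast this
    have h3 : (X : ℝ) / c < (X / c : ℕ) + 1 := by
      rw [div_lt_iff₀ hc']
      exact h2
    have h4 : (1 / (c : ℝ) - 1 / X) * X = X / c - 1 := by
      field_simp
    rw [h4]
    linarith
  · filter_upwards [eventually_gt_atTop 0] with X hX
    have hX' : (0 : ℝ) < X := by exact_mod_cast hX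
    rw [div_le_iff₀ hX']
    calc ((X / c : ℕ) : ℝ) ≤ (X : ℝ) / c := Nat.cast_div_le
      _ = 1 / c * X := by ring

theorem comp_div {f : ℕ → ℝ} {L : ℝ} (hf : Tendsto (fun Y : ℕ => f Y / Y) atTop (𝓝 L)) {c : ℕ}
    (hc : 0 < c) : Tendsto (fun X : ℕ => f (X / c) / X) atTop (𝓝 (L / c)) := by
  have h1 : Tendsto (fun X : ℕ => X / c) atTop atTop := Nat.tendsto_div_const_atTop hc.ne'
  have h2 := (hf.comp h1).mul (div_tendsto hc)
  have h3 : L * (1 / (c : ℝ)) = L / c := by ring
  rw [h3] at h2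
  refine h2.congr' ?_
  filter_upwards [eventually_ge_atTop c] with X hX
  have h4 : 0 < X / c := Nat.div_pos hX hc
  have h5 : ((X / c : ℕ) : ℝ) ≠ 0 := by positivity
  simp only [Function.comp]
  field_simp

theorem LL_sixty : LL 60 = 75 / (8 * Real.pi ^ 2) := by
  have h := LL_val 60
  have h1 : (60 : ℕ).primeFactors = {2, 3, 5} := by
    have : (60 : ℕ) = 2 ^ 2 * (3 * 5) := by norm_num
    rw [this, Nat.primeFactors_mul (by norm_num) (by norm_num),
      Nat.primeFactors_mul (by norm_num) (by norm_num),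
      Nat.primeFactors_pow _ (by norm_num), Nat.Prime.primeFactors Nat.prime_two,
      Nat.Prime.primeFactors Nat.prime_three, Nat.Prime.primeFactors Nat.prime_five]
    rfl
  rw [h1] at h
  have hpi : Real.pi ^ 2 ≠ 0 := by positivity
  rw [Finset.prod_insert (by decide), Finset.prod_insert (by decide), Finset.prod_singleton] at h
  norm_num at h
  rw [eq_div_iff (by positivity)]
  linarith

theorem LL_four : LL 4 = 8 / Real.pi ^ 2 := by
  have h := LL_val 4
  have h1 : (4 : ℕ).primeFactors = {2} := by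
    have : (4 : ℕ) = 2 ^ 2 := by norm_num
    rw [this, Nat.primeFactors_pow _ (by norm_num), Nat.Prime.primeFactors Nat.prime_two]
  rw [h1] at h
  have hpi : Real.pi ^ 2 ≠ 0 := by positivity
  rw [Finset.prod_singleton] at h
  norm_num at h
  rw [eq_div_iff (by positivity)]
  linarith

/-- (B14c) -/
theorem stmtNum3 : StmtNum3 := by
  set P : ℕ → ℝ := fun k => ∏ i ∈ range k, (1 - (1 / 2 : ℝ) ^ (i + 1)) with hP
  have hsucc : ∀ k, P (k + 1) = P k * (1 - (1 / 2 : ℝ) ^ (k + 1)) := fun k =>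
    Finset.prod_range_succ _ _
  have hfac : ∀ k : ℕ, 0 < (1 - (1 / 2 : ℝ) ^ (k + 1)) ∧ (1 - (1 / 2 : ℝ) ^ (k + 1)) ≤ 1 := by
    intro k
    have h1 : (1 / 2 : ℝ) ^ (k + 1) < 1 := pow_lt_one₀ (by norm_num) (by norm_num) (by omega)
    have h2 : 0 < (1 / 2 : ℝ) ^ (k + 1) := by positivity
    constructor <;> linarith
  have hpos : ∀ k, 0 < P k := fun k => Finset.prod_pos fun i _ => (hfac i).1
  have hanti : ∀ k, P (k + 1) ≤ P k := fun k => by
    rw [hsucc]
    exact mul_le_of_le_one_right (hpos k).le (hfac k).2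
  have hA : Antitone P := antitone_nat_of_succ_le hanti
  have htail : ∀ m : ℕ, P 10 * (1 - (1 / 2 : ℝ) ^ 10 + (1 / 2 : ℝ) ^ (10 + m)) ≤ P (10 + m) := by
    intro m
    induction m with
    | zero => simp
    | succ m ih =>
      rw [show 10 + (m + 1) = (10 + m) + 1 from rfl, hsucc (10 + m)]
      set t : ℝ := (1 / 2 : ℝ) ^ (10 + m + 1) with ht
      have h2 : (1 / 2 : ℝ) ^ (10 + m) = 2 * t := by rw [ht, pow_succ]; ring
      rw [h2] at ih
      have h3 : t ≤ (1 / 2 : ℝ) ^ 11 := by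
        rw [ht]
        exact pow_le_pow_of_le_one (by norm_num) (by norm_num) (by omega)
      have h4 : 0 < t := by positivity
      have h5 : 0 < P 10 := hpos 10
      have h6 : (1 - (1 / 2 : ℝ) ^ 10 + t) ≤ (1 - (1 / 2 : ℝ) ^ 10 + 2 * t) * (1 - t) := by
        have : (1 / 2 : ℝ) ^ 10 = 2 * (1 / 2 : ℝ) ^ 11 := by norm_num
        nlinarith
      calc P 10 * (1 - (1 / 2 : ℝ) ^ 10 + t)
          ≤ P 10 * ((1 - (1 / 2 : ℝ) ^ 10 + 2 * t) * (1 - t)) :=
            mul_le_mul_of_nonneg_left h6 h5.le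
        _ = (P 10 * (1 - (1 / 2 : ℝ) ^ 10 + 2 * t)) * (1 - t) := by ring
        _ ≤ P (10 + m) * (1 - t) := by
            apply mul_le_mul_of_nonneg_right ih
            have : (1 / 2 : ℝ) ^ 11 ≤ 1 := by norm_num
            linarith
  have h10 : (28878 / 100000 : ℝ) ≤ P 10 * (1 - (1 / 2 : ℝ) ^ 10) := by
    simp only [hP, Finset.prod_range_succ, Finset.prod_range_zero]
    norm_num
  have hall : ∀ k, (28878 / 100000 : ℝ) ≤ P k := by
    intro k
    have h1 : P (10 + k) ≤ P k := hA (by omega)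
    have h2 := htail k
    have h3 : 0 ≤ P 10 * (1 / 2 : ℝ) ^ (10 + k) := by have := hpos 10; positivity
    nlinarith
  have h1 : (28878 / 100000 : ℝ) ≤ eta := le_ciInf hall
  unfold StmtNum3
  linarith

theorem sq_mul_coprime {c m : ℕ} (hc : Squarefree c) (hm : Squarefree m) (h : c.Coprime m) :
    Squarefree (c * m) := (Nat.squarefree_mul h).2 ⟨hc, hm⟩

theorem TT_mem {q : ℕ} {R : Finset ℕ} {Y n : ℕ} :
    n ∈ TT q R Y ↔ (1 ≤ n ∧ n ≤ Y) ∧ Squarefree n ∧ n % q ∈ R := by
  simp [TT]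

theorem image_card (q : ℕ) (R : Finset ℕ) (Y c : ℕ) (hc : 0 < c) :
    ((TT q R Y).image (fun n => c * n)).card = (TT q R Y).card :=
  Finset.card_image_of_injective _ fun _ _ h => Nat.eq_of_mul_eq_mul_left hc h

open Classical in
theorem count1 (X : ℕ) :
    (TT 60 {23, 47} X).card + (TT 60 {1, 29, 41, 49} (X / 3)).card +
      (TT 60 {7, 19, 31, 43} (X / 5)).card +
      (TT 60 {1, 13, 17, 29, 37, 41, 49, 53} (X / 15)).card ≤
    ((Icc 1 X).filter (fun d => Squarefree d ∧ d % 4 = 3 ∧ OKc d)).card := by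
  rw [← image_card _ _ (X / 3) 3 (by norm_num), ← image_card _ _ (X / 5) 5 (by norm_num),
    ← image_card _ _ (X / 15) 15 (by norm_num)]
  set A := TT 60 {23, 47} X with hA
  set B := (TT 60 {1, 29, 41, 49} (X / 3)).image (fun n => 3 * n) with hB
  set C := (TT 60 {7, 19, 31, 43} (X / 5)).image (fun n => 5 * n) with hC
  set D := (TT 60 {1, 13, 17, 29, 37, 41, 49, 53} (X / 15)).image (fun n => 15 * n) with hD
  have hAB : Disjoint A B := by
    rw [Finset.disjoint_left]
    intro n hn hn'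
    rw [hA, TT_mem] at hn
    rw [hB, mem_image] at hn'
    obtain ⟨m, _, rfl⟩ := hn'
    have := hn.2.2
    simp only [mem_insert, mem_singleton] at this
    omega
  have hABC : Disjoint (A ∪ B) C := by
    rw [Finset.disjoint_left]
    intro n hn hn'
    rw [hC, mem_image] at hn'
    obtain ⟨m, hm, rfl⟩ := hn'
    rw [TT_mem] at hm
    have h2 := hm.2.2
    rw [mem_union, hA, TT_mem, hB, mem_image] at hn
    rcases hn with hn | ⟨k, hk, hk'⟩
    · have := hn.2.2
      simp only [mem_insert, mem_singleton] at this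
      omega
    · rw [TT_mem] at hk
      have h1 := hk.2.2
      simp only [mem_insert, mem_singleton] at h1 h2
      omega
  have hABCD : Disjoint (A ∪ B ∪ C) D := by
    rw [Finset.disjoint_left]
    intro n hn hn'
    rw [hD, mem_image] at hn'
    obtain ⟨m, hm, rfl⟩ := hn'
    rw [TT_mem] at hm
    have h2 := hm.2.2
    rw [mem_union, mem_union, hA, TT_mem, hB, mem_image, hC, mem_image] at hn
    rcases hn with (hn | ⟨k, hk, hk'⟩) | ⟨k, hk, hk'⟩
    · have := hn.2.2
      simp only [mem_insert, mem_singleton] at this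
      omega
    · rw [TT_mem] at hk
      have h1 := hk.2.2
      simp only [mem_insert, mem_singleton] at h1 h2
      omega
    · rw [TT_mem] at hk
      have h1 := hk.2.2
      simp only [mem_insert, mem_singleton] at h1 h2
      omega
  rw [← Finset.card_union_of_disjoint hAB, ← Finset.card_union_of_disjoint hABC,
    ← Finset.card_union_of_disjoint hABCD]
  apply Finset.card_le_card
  intro n hn
  rw [mem_union, mem_union, mem_union] at hn
  rw [mem_filter, mem_Icc]
  rcases hn with ((hn | hn) | hn) | hn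
  · rw [hA, TT_mem] at hn
    obtain ⟨h1, h2, h3⟩ := hn
    simp only [mem_insert, mem_singleton] at h3
    refine ⟨h1, h2, by omega, ?_, ?_⟩ <;> omega
  · rw [hB, mem_image] at hn
    obtain ⟨m, hm, rfl⟩ := hn
    rw [TT_mem] at hm
    obtain ⟨h1, h2, h3⟩ := hm
    simp only [mem_insert, mem_singleton] at h3
    refine ⟨by omega, ?_, by omega, ?_, ?_⟩
    · refine sq_mul_coprime Nat.prime_three.squarefree h2 ?_
      rw [Nat.Prime.coprime_iff_not_dvd Nat.prime_three]
      omega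
    · left; exact Dvd.intro _ rfl
    · omega
  · rw [hC, mem_image] at hn
    obtain ⟨m, hm, rfl⟩ := hn
    rw [TT_mem] at hm
    obtain ⟨h1, h2, h3⟩ := hm
    simp only [mem_insert, mem_singleton] at h3
    refine ⟨by omega, ?_, by omega, ?_, ?_⟩
    · refine sq_mul_coprime Nat.prime_five.squarefree h2 ?_
      rw [Nat.Prime.coprime_iff_not_dvd Nat.prime_five]
      omega
    · omega
    · left; exact Dvd.intro _ rfl
  · rw [hD, mem_image] at hn
    obtain ⟨m, hm, rfl⟩ := hn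
    rw [TT_mem] at hm
    obtain ⟨h1, h2, h3⟩ := hm
    simp only [mem_insert, mem_singleton] at h3
    refine ⟨by omega, ?_, by omega, ?_, ?_⟩
    · have h15 : (15 : ℕ) = 3 * 5 := by norm_num
      have hc3 : Nat.Coprime 3 m := by
        rw [Nat.Prime.coprime_iff_not_dvd Nat.prime_three]
        omega
      have hc5 : Nat.Coprime 5 m := by
        rw [Nat.Prime.coprime_iff_not_dvd Nat.prime_five]
        omega
      refine sq_mul_coprime ?_ h2 ?_
      · rw [h15]
        exact sq_mul_coprime Nat.prime_three.squarefree Nat.prime_five.squarefree (by norm_num)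
      · rw [h15]
        exact Nat.Coprime.mul_left hc3 hc5
    · left; exact ⟨5 * m, by ring⟩
    · left; exact ⟨3 * m, by ring⟩

open Classical in
/-- (B14a) -/
theorem stmtNum1 : StmtNum1 := by
  have h1 := TT_tendsto (q := 60) (by norm_num) {23, 47} (by decide)
  have h2 := comp_div (TT_tendsto (q := 60) (by norm_num) {1, 29, 41, 49} (by decide))
    (c := 3) (by norm_num)
  have h3 := comp_div (TT_tendsto (q := 60) (by norm_num) {7, 19, 31, 43} (by decide))
    (c := 5) (by norm_num)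
  have h4 := comp_div (TT_tendsto (q := 60) (by norm_num) {1, 13, 17, 29, 37, 41, 49, 53}
    (by decide)) (c := 15) (by norm_num)
  have h5 := ((h1.add h2).add h3).add h4
  have hc1 : (({23, 47} : Finset ℕ).card : ℝ) = 2 := by norm_num
  have hc2 : (({1, 29, 41, 49} : Finset ℕ).card : ℝ) = 4 := by
    have : ({1, 29, 41, 49} : Finset ℕ).card = 4 := by decide
    rw [this]; norm_num
  have hc3 : (({7, 19, 31, 43} : Finset ℕ).card : ℝ) = 4 := by
    have : ({7, 19, 31, 43} : Finset ℕ).card = 4 := by decide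
    rw [this]; norm_num
  have hc4 : (({1, 13, 17, 29, 37, 41, 49, 53} : Finset ℕ).card : ℝ) = 8 := by
    have : ({1, 13, 17, 29, 37, 41, 49, 53} : Finset ℕ).card = 8 := by decide
    rw [this]; norm_num
  rw [hc1, hc2, hc3, hc4, LL_sixty] at h5
  have hpi : Real.pi < 3.141593 := Real.pi_lt_d6
  have hpi0 : 0 < Real.pi := Real.pi_pos
  have hpi2 : Real.pi ^ 2 < 9.8697 := by nlinarith
  have h6 : (7385 / 100000 : ℝ) < 2 * (75 / (8 * Real.pi ^ 2) / (60 : ℕ)) +
      4 * (75 / (8 * Real.pi ^ 2) / (60 : ℕ)) / (3 : ℕ) +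
      4 * (75 / (8 * Real.pi ^ 2) / (60 : ℕ)) / (5 : ℕ) +
      8 * (75 / (8 * Real.pi ^ 2) / (60 : ℕ)) / (15 : ℕ) := by
    have h7 : 2 * (75 / (8 * Real.pi ^ 2) / (60 : ℕ)) +
      4 * (75 / (8 * Real.pi ^ 2) / (60 : ℕ)) / (3 : ℕ) +
      4 * (75 / (8 * Real.pi ^ 2) / (60 : ℕ)) / (5 : ℕ) +
      8 * (75 / (8 * Real.pi ^ 2) / (60 : ℕ)) / (15 : ℕ) = (35 / 48) / Real.pi ^ 2 := by
      push_cast
      field_simp
      norm_num
    rw [h7, lt_div_iff₀ (by positivity)]
    nlinarith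
  have h7 := h5.eventually (lt_mem_nhds h6)
  obtain ⟨X₀, hX₀⟩ := eventually_atTop.1 (h7.and (eventually_gt_atTop 0))
  refine ⟨X₀, fun X hX => ?_⟩
  obtain ⟨h8, h9⟩ := hX₀ X hX
  have hX' : (0 : ℝ) < X := by exact_mod_cast h9
  have h10 := count1 X
  have h11 : ((TT 60 {23, 47} X).card : ℝ) + (TT 60 {1, 29, 41, 49} (X / 3)).card +
      (TT 60 {7, 19, 31, 43} (X / 5)).card +
      (TT 60 {1, 13, 17, 29, 37, 41, 49, 53} (X / 15)).card ≤
      (((Icc 1 X).filter (fun d => Squarefree d ∧ d % 4 = 3 ∧ OKc d)).card : ℝ) := by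
    exact_mod_cast h10
  refine le_trans ?_ h11
  rw [← add_div, ← add_div, ← add_div, lt_div_iff₀ hX'] at h8
  exact h8.le

open Classical in
theorem count2 (X : ℕ) :
    ((Icc 1 X).filter IsFund).card ≤ (TT 4 {3} X).card + (TT 4 {1} (X / 4)).card +
      (TT 4 {1, 3} (X / 8)).card := by
  rw [← image_card _ _ (X / 4) 4 (by norm_num), ← image_card _ _ (X / 8) 8 (by norm_num)]
  refine le_trans (Finset.card_le_card ?_) (le_trans (Finset.card_union_le
    (TT 4 {3} X ∪ (TT 4 {1} (X / 4)).image (fun n => 4 * n))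
    ((TT 4 {1, 3} (X / 8)).image (fun n => 8 * n))) (Nat.add_le_add_right
      (Finset.card_union_le _ _) _))
  intro n hn
  rw [mem_filter, mem_Icc] at hn
  rw [mem_union, mem_union]
  obtain ⟨h1, h2 | ⟨m, rfl, h3, h4 | h4⟩⟩ := hn
  · left; left
    rw [TT_mem]
    exact ⟨h1, h2.1, by simpa using h2.2⟩
  · left; right
    rw [mem_image]
    refine ⟨m, ?_, rfl⟩
    rw [TT_mem]
    exact ⟨by omega, h3, by simpa using h4⟩
  · right
    rw [mem_image]
    obtain ⟨k, rfl⟩ : 2 ∣ m := by omega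
    refine ⟨k, ?_, by ring⟩
    rw [TT_mem]
    refine ⟨by omega, h3.squarefree_of_dvd (Dvd.intro_left _ rfl), ?_⟩
    simp only [mem_insert, mem_singleton]
    omega

open Classical in
/-- (B14b) -/
theorem stmtNum2 : StmtNum2 := by
  have h1 := TT_tendsto (q := 4) (by norm_num) {3} (by decide)
  have h2 := comp_div (TT_tendsto (q := 4) (by norm_num) {1} (by decide))
    (c := 4) (by norm_num)
  have h3 := comp_div (TT_tendsto (q := 4) (by norm_num) {1, 3} (by decide))
    (c := 8) (by norm_num)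
  have h5 := (h1.add h2).add h3
  have hc3 : (({1, 3} : Finset ℕ).card : ℝ) = 2 := by
    have : ({1, 3} : Finset ℕ).card = 2 := by decide
    rw [this]; norm_num
  rw [hc3, Finset.card_singleton, Finset.card_singleton, LL_four] at h5
  have hpi : 3.141592 < Real.pi := Real.pi_gt_d6
  have hpi0 : 0 < Real.pi := Real.pi_pos
  have hpi2 : 9.8696 < Real.pi ^ 2 := by nlinarith
  have h6 : ((1 : ℕ) : ℝ) * (8 / Real.pi ^ 2 / (4 : ℕ)) +
      ((1 : ℕ) : ℝ) * (8 / Real.pi ^ 2 / (4 : ℕ)) / (4 : ℕ) +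
      2 * (8 / Real.pi ^ 2 / (4 : ℕ)) / (8 : ℕ) < 30397 / 100000 := by
    have h7 : ((1 : ℕ) : ℝ) * (8 / Real.pi ^ 2 / (4 : ℕ)) +
      ((1 : ℕ) : ℝ) * (8 / Real.pi ^ 2 / (4 : ℕ)) / (4 : ℕ) +
      2 * (8 / Real.pi ^ 2 / (4 : ℕ)) / (8 : ℕ) = 3 / Real.pi ^ 2 := by
      push_cast
      field_simp
      norm_num
    rw [h7, div_lt_iff₀ (by positivity)]
    nlinarith
  have h7 := h5.eventually (gt_mem_nhds h6)
  obtain ⟨X₀, hX₀⟩ := eventually_atTop.1 (h7.and (eventually_gt_atTop 0))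
  refine ⟨X₀, fun X hX => ?_⟩
  obtain ⟨h8, h9⟩ := hX₀ X hX
  have hX' : (0 : ℝ) < X := by exact_mod_cast h9
  have h10 := count2 X
  have h11 : (((Icc 1 X).filter IsFund).card : ℝ) ≤ (TT 4 {3} X).card +
      (TT 4 {1} (X / 4)).card + (TT 4 {1, 3} (X / 8)).card := by
    exact_mod_cast h10
  refine le_trans h11 ?_
  rw [← add_div, ← add_div, div_lt_iff₀ hX'] at h8
  exact h8.le

end Vale.Agent.P017.R3.H524
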