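import Vale.Agent.P017.R3.D1
import Vale.Agent.P017.R3.H524.Num

/-!
# P017: the combined count (B14d)
-/

open Finset Filter Topology

namespace Vale.Agent.P017.R3.H524

open Classical in
theorem count4 (X : ℕ) :
    (TT 60 {19, 31, 23, 47} X).card + (TT 60 {1, 29, 41, 49} (X / 3)).card +
      (TT 60 {7, 19, 31, 43} (X / 5)).card +
      (TT 60 {1, 13, 17, 29, 37, 41, 49, 53} (X / 15)).card ≤
    ((Icc 1 X).filter (fun d => Squarefree d ∧ d % 4 = 3 ∧ (OKc d ∨ OK2 d))).card := by
  rw [← image_card _ _ (X / 3) 3 (by norm_num), ← image_card _ _ (X / 5) 5 (by norm_num),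
    ← image_card _ _ (X / 15) 15 (by norm_num)]
  set A := TT 60 {19, 31, 23, 47} X with hA
  set B := (TT 60 {1, 29, 41, 49} (X / 3)).image (fun n => 3 * n) with hB
  set C := (TT 60 {7, 19, 31, 43} (X / 5)).image (fun n => 5 * n) with hC
  set D := (TT 60 {1, 13, 17, 29, 37, 41, 49, 53} (X / 15)).image (fun n => 15 * n) with hD
  have hAB : Disjoint A B := by
    rw [Finset.disjoint_left]
    intro n hn hn'
    rw [hA, TT_mem] at hn
    rw [hB, mem_image] at hn'
    obtain ⟨m, _, rfl⟩ := hn'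
    have := hn.2.2
    simp only [mem_insert, mem_singleton] at this
    omega
  have hABC : Disjoint (A ∪ B) C := by
    rw [Finset.disjoint_left]
    intro n hn hn'
    rw [hC, mem_image] at hn'
    obtain ⟨m, hm, rfl⟩ := hn'
    rw [TT_mem] at hm
    have h2 := hm.2.2
    rw [mem_union, hA, TT_mem, hB, mem_image] at hn
    rcases hn with hn | ⟨k, hk, hk'⟩
    · have := hn.2.2
      simp only [mem_insert, mem_singleton] at this
      omega
    · rw [TT_mem] at hk
      have h1 := hk.2.2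
      simp only [mem_insert, mem_singleton] at h1 h2
      omega
  have hABCD : Disjoint (A ∪ B ∪ C) D := by
    rw [Finset.disjoint_left]
    intro n hn hn'
    rw [hD, mem_image] at hn'
    obtain ⟨m, hm, rfl⟩ := hn'
    rw [TT_mem] at hm
    have h2 := hm.2.2
    rw [mem_union, mem_union, hA, TT_mem, hB, mem_image, hC, mem_image] at hn
    rcases hn with (hn | ⟨k, hk, hk'⟩) | ⟨k, hk, hk'⟩
    · have := hn.2.2
      simp only [mem_insert, mem_singleton] at this
      omega
    · rw [TT_mem] at hk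
      have h1 := hk.2.2
      simp only [mem_insert, mem_singleton] at h1 h2
      omega
    · rw [TT_mem] at hk
      have h1 := hk.2.2
      simp only [mem_insert, mem_singleton] at h1 h2
      omega
  rw [← Finset.card_union_of_disjoint hAB, ← Finset.card_union_of_disjoint hABC,
    ← Finset.card_union_of_disjoint hABCD]
  apply Finset.card_le_card
  intro n hn
  rw [mem_union, mem_union, mem_union] at hn
  rw [mem_filter, mem_Icc]
  rcases hn with ((hn | hn) | hn) | hn
  · rw [hA, TT_mem] at hn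
    obtain ⟨h1, h2, h3⟩ := hn
    simp only [mem_insert, mem_singleton] at h3
    refine ⟨h1, h2, by omega, ?_⟩
    unfold OKc OK2
    omega
  · rw [hB, mem_image] at hn
    obtain ⟨m, hm, rfl⟩ := hn
    rw [TT_mem] at hm
    obtain ⟨h1, h2, h3⟩ := hm
    simp only [mem_insert, mem_singleton] at h3
    refine ⟨by omega, ?_, by omega, Or.inl ⟨?_, ?_⟩⟩
    · refine sq_mul_coprime Nat.prime_three.squarefree h2 ?_
      rw [Nat.Prime.coprime_iff_not_dvd Nat.prime_three]
      omega
    · left; exact Dvd.intro _ rfl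
    · omega
  · rw [hC, mem_image] at hn
    obtain ⟨m, hm, rfl⟩ := hn
    rw [TT_mem] at hm
    obtain ⟨h1, h2, h3⟩ := hm
    simp only [mem_insert, mem_singleton] at h3
    refine ⟨by omega, ?_, by omega, Or.inl ⟨?_, ?_⟩⟩
    · refine sq_mul_coprime Nat.prime_five.squarefree h2 ?_
      rw [Nat.Prime.coprime_iff_not_dvd Nat.prime_five]
      omega
    · omega
    · left; exact Dvd.intro _ rfl
  · rw [hD, mem_image] at hn
    obtain ⟨m, hm, rfl⟩ := hn
    rw [TT_mem] at hm
    obtain ⟨h1, h2, h3⟩ := hm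
    simp only [mem_insert, mem_singleton] at h3
    refine ⟨by omega, ?_, by omega, Or.inl ⟨?_, ?_⟩⟩
    · have h15 : (15 : ℕ) = 3 * 5 := by norm_num
      have hc3 : Nat.Coprime 3 m := by
        rw [Nat.Prime.coprime_iff_not_dvd Nat.prime_three]
        omega
      have hc5 : Nat.Coprime 5 m := by
        rw [Nat.Prime.coprime_iff_not_dvd Nat.prime_five]
        omega
      refine sq_mul_coprime ?_ h2 ?_
      · rw [h15]
        exact sq_mul_coprime Nat.prime_three.squarefree Nat.prime_five.squarefree (by norm_num)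
      · rw [h15]
        exact Nat.Coprime.mul_left hc3 hc5
    · left; exact ⟨5 * m, by ring⟩
    · left; exact ⟨3 * m, by ring⟩

open Classical in
/-- (B14d) -/
theorem stmtNum4 : StmtNum4 := by
  have h1 := TT_tendsto (q := 60) (by norm_num) {19, 31, 23, 47} (by decide)
  have h2 := comp_div (TT_tendsto (q := 60) (by norm_num) {1, 29, 41, 49} (by decide))
    (c := 3) (by norm_num)
  have h3 := comp_div (TT_tendsto (q := 60) (by norm_num) {7, 19, 31, 43} (by decide))
    (c := 5) (by norm_num)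
  have h4 := comp_div (TT_tendsto (q := 60) (by norm_num) {1, 13, 17, 29, 37, 41, 49, 53}
    (by decide)) (c := 15) (by norm_num)
  have h5 := ((h1.add h2).add h3).add h4
  have hc1 : (({19, 31, 23, 47} : Finset ℕ).card : ℝ) = 4 := by
    have : ({19, 31, 23, 47} : Finset ℕ).card = 4 := by decide
    rw [this]; norm_num
  have hc2 : (({1, 29, 41, 49} : Finset ℕ).card : ℝ) = 4 := by
    have : ({1, 29, 41, 49} : Finset ℕ).card = 4 := by decide
    rw [this]; norm_num
  have hc3 : (({7, 19, 31, 43} : Finset ℕ).card : ℝ) = 4 := by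
    have : ({7, 19, 31, 43} : Finset ℕ).card = 4 := by decide
    rw [this]; norm_num
  have hc4 : (({1, 13, 17, 29, 37, 41, 49, 53} : Finset ℕ).card : ℝ) = 8 := by
    have : ({1, 13, 17, 29, 37, 41, 49, 53} : Finset ℕ).card = 8 := by decide
    rw [this]; norm_num
  rw [hc1, hc2, hc3, hc4, LL_sixty] at h5
  have hpi : Real.pi < 3.141593 := Real.pi_lt_d6
  have hpi0 : 0 < Real.pi := Real.pi_pos
  have hpi2 : Real.pi ^ 2 < 9.8697 := by nlinarith
  have h6 : (1055 / 10000 : ℝ) < 4 * (75 / (8 * Real.pi ^ 2) / (60 : ℕ)) +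
      4 * (75 / (8 * Real.pi ^ 2) / (60 : ℕ)) / (3 : ℕ) +
      4 * (75 / (8 * Real.pi ^ 2) / (60 : ℕ)) / (5 : ℕ) +
      8 * (75 / (8 * Real.pi ^ 2) / (60 : ℕ)) / (15 : ℕ) := by
    have h7 : 4 * (75 / (8 * Real.pi ^ 2) / (60 : ℕ)) +
      4 * (75 / (8 * Real.pi ^ 2) / (60 : ℕ)) / (3 : ℕ) +
      4 * (75 / (8 * Real.pi ^ 2) / (60 : ℕ)) / (5 : ℕ) +
      8 * (75 / (8 * Real.pi ^ 2) / (60 : ℕ)) / (15 : ℕ) = (25 / 24) / Real.pi ^ 2 := by
      push_cast
      field_simp
      norm_num
    rw [h7, lt_div_iff₀ (by positivity)]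
    nlinarith
  have h7 := h5.eventually (lt_mem_nhds h6)
  obtain ⟨X₀, hX₀⟩ := eventually_atTop.1 (h7.and (eventually_gt_atTop 0))
  refine ⟨X₀, fun X hX => ?_⟩
  obtain ⟨h8, h9⟩ := hX₀ X hX
  have hX' : (0 : ℝ) < X := by exact_mod_cast h9
  have h10 := count4 X
  have h11 : ((TT 60 {19, 31, 23, 47} X).card : ℝ) + (TT 60 {1, 29, 41, 49} (X / 3)).card +
      (TT 60 {7, 19, 31, 43} (X / 5)).card +
      (TT 60 {1, 13, 17, 29, 37, 41, 49, 53} (X / 15)).card ≤
      (((Icc 1 X).filter (fun d => Squarefree d ∧ d % 4 = 3 ∧ (OKc d ∨ OK2 d))).card : ℝ) := by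
    exact_mod_cast h10
  refine le_trans ?_ h11
  rw [← add_div, ← add_div, ← add_div, lt_div_iff₀ hX'] at h8
  exact h8.le

end Vale.Agent.P017.R3.H524
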